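import Vale.Agent.P203.MathlibUsed

/-!
# Homological good theory: the abstract part

`D` is a square zero endomorphism of a free abelian group `B →₀ ℤ`.  `Ex D X` says that the
subcomplex spanned by `X ⊆ B` is exact, `Inj D X Y` that a cycle of `X` which bounds in `Y`
bounds in `X`.
-/

namespace Vale.Agent.P203.Hom

variable {B : Type}

/-- The subgroup of chains supported on `X`. -/
abbrev Sp (X : Set B) : Submodule ℤ (B →₀ ℤ) := Finsupp.supported ℤ ℤ X

/-- Exactness of the subcomplex spanned by `X`. -/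
def Ex (D : (B →₀ ℤ) →ₗ[ℤ] (B →₀ ℤ)) (X : Set B) : Prop :=
  ∀ z ∈ Sp X, D z = 0 → ∃ y ∈ Sp X, D y = z

/-- Cycles of `X` bounding in `Y` bound in `X`. -/
def Inj (D : (B →₀ ℤ) →ₗ[ℤ] (B →₀ ℤ)) (X Y : Set B) : Prop :=
  ∀ z ∈ Sp X, D z = 0 → (∃ y ∈ Sp Y, D y = z) → ∃ y ∈ Sp X, D y = z

/-- `X` is closed under `D`. -/
def Stable (D : (B →₀ ℤ) →ₗ[ℤ] (B →₀ ℤ)) (X : Set B) : Prop :=
  ∀ z ∈ Sp X, D z ∈ Sp X

variable {D : (B →₀ ℤ) →ₗ[ℤ] (B →₀ ℤ)}

theorem mem_Sp_union {X Y : Set B} {z : B →₀ ℤ} (hz : z ∈ Sp (X ∪ Y)) :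
    ∃ a ∈ Sp X, ∃ b ∈ Sp Y, a + b = z := by
  rw [Sp, Finsupp.supported_union] at hz
  exact Submodule.mem_sup.mp hz

theorem mem_Sp_inter {X Y : Set B} {z : B →₀ ℤ} (hX : z ∈ Sp X) (hY : z ∈ Sp Y) :
    z ∈ Sp (X ∩ Y) := by
  rw [Sp, Finsupp.supported_inter]
  exact ⟨hX, hY⟩

theorem Sp_mono {X Y : Set B} (h : X ⊆ Y) : Sp X ≤ Sp Y := Finsupp.supported_mono h

/-- Mayer-Vietoris. -/
theorem Ex.union (hDD : ∀ z, D (D z) = 0) {X Y : Set B} (sX : Stable D X) (sY : Stable D Y)
    (hX : Ex D X) (hY : Ex D Y) (hXY : Ex D (X ∩ Y)) : Ex D (X ∪ Y) := by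
  intro z hz hDz
  obtain ⟨a, ha, b, hb, rfl⟩ := mem_Sp_union hz
  have h1 : D a = - D b := by
    rw [map_add] at hDz
    exact eq_neg_of_add_eq_zero_left hDz
  have h2 : D a ∈ Sp (X ∩ Y) :=
    mem_Sp_inter (sX a ha) (by rw [h1]; exact Submodule.neg_mem _ (sY b hb))
  obtain ⟨c, hc, hDc⟩ := hXY (D a) h2 (hDD a)
  have hcX : c ∈ Sp X := Sp_mono Set.inter_subset_left hc
  have hcY : c ∈ Sp Y := Sp_mono Set.inter_subset_right hc
  obtain ⟨y1, hy1, e1⟩ := hX (a - c) (Submodule.sub_mem _ ha hcX) (by rw [map_sub, hDc, sub_self])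
  obtain ⟨y2, hy2, e2⟩ := hY (b + c) (Submodule.add_mem _ hb hcY)
    (by rw [map_add, hDc, h1, add_neg_cancel])
  refine ⟨y1 + y2, Submodule.add_mem _ (Sp_mono Set.subset_union_left hy1)
    (Sp_mono Set.subset_union_right hy2), ?_⟩
  rw [map_add, e1, e2]; abel

/-- Directed unions. -/
theorem Ex.directed {ι : Type} [Nonempty ι] (X : ι → Set B) (hdir : Directed (· ⊆ ·) X)
    (h : ∀ i, Ex D (X i)) : Ex D (⋃ i, X i) := by
  intro z hz hDz
  obtain ⟨i, hi⟩ : ∃ i, z ∈ Sp (X i) := by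
    rw [Sp, Finsupp.mem_supported] at hz
    obtain ⟨i, hi⟩ := hdir.exists_mem_subset_of_finset_subset_biUnion hz
    exact ⟨i, by rw [Sp, Finsupp.mem_supported]; exact hi⟩
  obtain ⟨y, hy, e⟩ := h i z hi hDz
  exact ⟨y, Sp_mono (Set.subset_iUnion X i) hy, e⟩

theorem Inj.refl (X : Set B) : Inj D X X := fun _ _ _ h => h

theorem Inj.trans {X Y Z : Set B} (hXY : X ⊆ Y) (h1 : Inj D X Y) (h2 : Inj D Y Z) :
    Inj D X Z :=
  fun z hz hDz h => h1 z hz hDz (h2 z (Sp_mono hXY hz) hDz h)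

/-- (E1) -/
theorem Inj.union (hDD : ∀ z, D (D z) = 0) {X Y : Set B} (sX : Stable D X) (sY : Stable D Y)
    (hXY : Ex D (X ∩ Y)) : Inj D X (X ∪ Y) := by
  rintro z hz hDz ⟨y, hy, e⟩
  obtain ⟨a, ha, b, hb, rfl⟩ := mem_Sp_union hy
  have h1 : D b = z - D a := by rw [← e, map_add]; abel
  have h2 : D b ∈ Sp (X ∩ Y) :=
    mem_Sp_inter (by rw [h1]; exact Submodule.sub_mem _ hz (sX a ha)) (sY b hb)
  obtain ⟨c, hc, hDc⟩ := hXY (D b) h2 (hDD b)
  refine ⟨a + c, Submodule.add_mem _ ha (Sp_mono Set.inter_subset_left hc), ?_⟩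
  rw [map_add, hDc, h1]; abel

/-- (E3) -/
theorem Inj.directed {ι : Type} [Nonempty ι] {A : Set B} (X : ι → Set B)
    (hdir : Directed (· ⊆ ·) X) (h : ∀ i, Inj D A (X i)) : Inj D A (⋃ i, X i) := by
  rintro z hz hDz ⟨y, hy, e⟩
  obtain ⟨i, hi⟩ : ∃ i, y ∈ Sp (X i) := by
    rw [Sp, Finsupp.mem_supported] at hy
    obtain ⟨i, hi⟩ := hdir.exists_mem_subset_of_finset_subset_biUnion hy
    exact ⟨i, by rw [Sp, Finsupp.mem_supported]; exact hi⟩
  exact h i z hz hDz ⟨y, hi, e⟩

/-- (E4) -/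
theorem Inj.ex {X Y : Set B} (hXY : X ⊆ Y) (h : Inj D X Y) (hY : Ex D Y) : Ex D X :=
  fun z hz hDz => h z hz hDz (hY z (Sp_mono hXY hz) hDz)

/-- A subcomplex with an acyclic matching `l ↦ u l` is exact. -/
theorem ex_of_matching (hDD : ∀ z, D (D z) = 0) (X L : Set B) (u : B → B) (ρ : B → ℕ)
    (hu : ∀ l ∈ L, u l ∈ X)
    (hcov : ∀ b ∈ X, b ∉ L → ∃ l ∈ L, b = u l)
    (hD : ∀ l ∈ L, ∃ e : ℤ, (e = 1 ∨ e = -1) ∧
      D (Finsupp.single (u l) 1) - Finsupp.single l e ∈ Sp {b | b ∈ X ∧ (b ∈ L → ρ b < ρ l)}) :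
    Ex D X := by
  classical
  replace hD : ∀ l ∈ L, ∃ e : ℤ, (e = 1 ∨ e = -1) ∧
      ∀ b, (D (Finsupp.single (u l) 1) - Finsupp.single l e) b ≠ 0 →
        b ∈ X ∧ (b ∈ L → ρ b < ρ l) := by
    intro l hl
    obtain ⟨e, he, h⟩ := hD l hl
    rw [Sp, Finsupp.mem_supported] at h
    exact ⟨e, he, fun b hb => h (Finsupp.mem_support_iff.mpr hb)⟩
  -- (i)
  have key : Sp X ≤ Submodule.map D (Sp X) ⊔ Sp (X \ L) := by
    have hbasis : ∀ n : ℕ, ∀ l ∈ L, ρ l < n →
        Finsupp.single l (1 : ℤ) ∈ Submodule.map D (Sp X) ⊔ Sp (X \ L) := by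
      intro n
      induction n with
      | zero => intro l _ h; exact absurd h (Nat.not_lt_zero _)
      | succ n ih =>
        intro l hl hln
        obtain ⟨e, he, hb⟩ := hD l hl
        set r := D (Finsupp.single (u l) 1) - Finsupp.single l e with hr
        have hrmem : r ∈ Submodule.map D (Sp X) ⊔ Sp (X \ L) := by
          have : r = ∑ b ∈ r.support, r b • Finsupp.single b (1 : ℤ) := by
            conv_lhs => rw [← Finsupp.sum_single r]
            unfold Finsupp.sum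
            refine Finset.sum_congr rfl fun b _ => ?_
            rw [Finsupp.smul_single, smul_eq_mul, mul_one]
          rw [this]
          refine Submodule.sum_mem _ fun b hbs => Submodule.smul_mem _ _ ?_
          have hbX := hb b (Finsupp.mem_support_iff.mp hbs)
          by_cases hbL : b ∈ L
          · exact ih b hbL (lt_of_lt_of_le (hbX.2 hbL) (Nat.lt_succ_iff.mp hln))
          · exact (le_sup_right : Sp (X \ L) ≤ _)
              (Finsupp.single_mem_supported ℤ _ (show b ∈ X \ L from ⟨hbX.1, hbL⟩))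
        have hDmem : D (Finsupp.single (u l) 1) ∈ Submodule.map D (Sp X) ⊔ Sp (X \ L) :=
          (le_sup_left : Submodule.map D (Sp X) ≤ _)
            (Submodule.mem_map_of_mem (Finsupp.single_mem_supported ℤ _ (hu l hl)))
        have hsl : Finsupp.single l e ∈ Submodule.map D (Sp X) ⊔ Sp (X \ L) := by
          have : Finsupp.single l e = D (Finsupp.single (u l) 1) - r := by rw [hr]; abel
          rw [this]; exact Submodule.sub_mem _ hDmem hrmem
        have : Finsupp.single l (1 : ℤ) = e • Finsupp.single l e := by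
          rw [Finsupp.smul_single, smul_eq_mul]
          rcases he with rfl | rfl <;> norm_num
        rw [this]; exact Submodule.smul_mem _ _ hsl
    intro z hz
    have hz' : z = ∑ b ∈ z.support, z b • Finsupp.single b (1 : ℤ) := by
      conv_lhs => rw [← Finsupp.sum_single z]
      unfold Finsupp.sum
      refine Finset.sum_congr rfl fun b _ => ?_
      rw [Finsupp.smul_single, smul_eq_mul, mul_one]
    rw [hz']
    refine Submodule.sum_mem _ fun b hbs => Submodule.smul_mem _ _ ?_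
    have hbX : b ∈ X := by
      rw [Sp, Finsupp.mem_supported] at hz
      exact hz hbs
    by_cases hbL : b ∈ L
    · exact hbasis (ρ b + 1) b hbL (Nat.lt_succ_self _)
    · exact (le_sup_right : Sp (X \ L) ≤ _)
        (Finsupp.single_mem_supported ℤ _ (show b ∈ X \ L from ⟨hbX, hbL⟩))
  -- (ii)
  have inj : ∀ z ∈ Sp (X \ L), D z = 0 → z = 0 := by
    intro z hz hDz
    by_contra hne
    rw [Sp, Finsupp.mem_supported] at hz
    have hch : ∀ b : z.support, ∃ l ∈ L, (b : B) = u l := fun b =>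
      hcov b (hz b.2).1 (hz b.2).2
    choose lf hlf hbu using hch
    have hne' : z.support.attach.Nonempty := by
      rw [Finset.attach_nonempty_iff]
      exact Finsupp.support_nonempty_iff.mpr hne
    obtain ⟨b0, -, hmax⟩ := Finset.exists_max_image z.support.attach (fun b => ρ (lf b)) hne'
    set l := lf b0 with hl
    have hsum : D z = ∑ b ∈ z.support, z b • D (Finsupp.single b (1 : ℤ)) := by
      have : z = ∑ b ∈ z.support, z b • Finsupp.single b (1 : ℤ) := by
        conv_lhs => rw [← Finsupp.sum_single z]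
        unfold Finsupp.sum
        refine Finset.sum_congr rfl fun b _ => ?_
        rw [Finsupp.smul_single, smul_eq_mul, mul_one]
      conv_lhs => rw [this]
      rw [map_sum]
      exact Finset.sum_congr rfl fun b _ => map_zsmul D (z b) _
    have h0 : (D z) l = 0 := by rw [hDz]; rfl
    rw [hsum, Finsupp.finsetSum_apply] at h0
    rw [Finset.sum_eq_single (b0 : B)] at h0
    · obtain ⟨e, he, hb⟩ := hD l (hlf b0)
      have h1 : (D (Finsupp.single (u l) 1) - Finsupp.single l e) l = 0 := by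
        by_contra hcon
        exact absurd ((hb l hcon).2 (hlf b0)) (lt_irrefl _)
      rw [Finsupp.sub_apply, Finsupp.single_eq_same, sub_eq_zero] at h1
      rw [hbu b0, ← hl, Finsupp.smul_apply, h1, smul_eq_mul] at h0
      have h2 : z (b0 : B) ≠ 0 := Finsupp.mem_support_iff.mp b0.2
      rw [hbu b0, ← hl] at h2
      rcases he with rfl | rfl
      · exact h2 (by simpa using h0)
      · exact h2 (by simpa using h0)
    · intro b hb hbne
      have hbl := hbu ⟨b, hb⟩
      rw [Finsupp.smul_apply]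
      have : (D (Finsupp.single b (1 : ℤ))) l = 0 := by
        by_contra hcon
        obtain ⟨e, he, hb'⟩ := hD (lf ⟨b, hb⟩) (hlf ⟨b, hb⟩)
        have hle := hmax ⟨b, hb⟩ (Finset.mem_attach _ _)
        have hll : l ≠ lf ⟨b, hb⟩ := by
          intro h
          apply hbne
          have := hbl
          rw [← h, hl, ← hbu b0] at this
          exact this
        have h1 : (D (Finsupp.single (u (lf ⟨b, hb⟩)) 1) -
            Finsupp.single (lf ⟨b, hb⟩) e) l ≠ 0 := by
          rw [Finsupp.sub_apply, Finsupp.single_eq_of_ne hll, sub_zero]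
          rw [← hbl]; exact hcon
        have := (hb' l h1).2 (hlf b0)
        exact absurd hle (not_le.mpr this)
      rw [this, smul_zero]
    · intro h; exact absurd b0.2 h
  intro z hz hDz
  obtain ⟨y', hy', x, hx, e⟩ := Submodule.mem_sup.mp (key hz)
  obtain ⟨y, hy, rfl⟩ := Submodule.mem_map.mp hy'
  refine ⟨y, hy, ?_⟩
  have hx0 : x = 0 := by
    apply inj x hx
    have : x = z - D y := by rw [← e]; abel
    rw [this, map_sub, hDz, hDD, sub_zero]
  rw [← e, hx0, add_zero]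

end Vale.Agent.P203.Hom
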