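import Vale.Agent.P203.Sph.Cells
import Vale.Agent.P203.Hom.Abs

/-!
# The augmented cellular chain complex of the universal cover, on the set of all cells

`bD M` is the augmented boundary on the free abelian group on `Option (ACell M)`, where
`none` is the extra generator in degree `-1`.
-/

namespace Vale.Agent.P203.Hom

open Vale.Agent.P203 Vale.Agent.P203.Sph
open Vale.Agent.P203.Gar (WP tl)

variable {S : Type}

/-- The facts on Coxeter groups and on the lift to the Artin group that are used. -/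
structure Facts (M : CoxeterMatrix S) : Prop where
  /-- lengths add for `w` minimal in `w W_T` and `v ∈ W_T` -/
  len_add : ∀ (T : Set S) (w v : M.Group), (∀ t ∈ T, len M w < len M (w * M.simple t)) →
    v ∈ WP M T → len M (w * v) = len M w + len M v
  /-- the lift is multiplicative when lengths add (Matsumoto) -/
  lift_mul : ∀ w v : M.Group, len M (w * v) = len M w + len M v →
    lift M (artinGen M) (w * v) = lift M (artinGen M) w * lift M (artinGen M) v
  /-- uniqueness of the longest element -/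
  long_unique : ∀ (T : Set S) (w v : M.Group), w ∈ WP M T → v ∈ WP M T →
    (∀ t ∈ T, len M (w * M.simple t) < len M w) → (∀ t ∈ T, len M (v * M.simple t) < len M v) →
    w = v

section cox

variable {M : CoxeterMatrix S} (F : Facts M)

theorem len_eq (w : M.Group) : len M w = M.toCoxeterSystem.length w := rfl

theorem len_one' : len M (1 : M.Group) = 0 := M.toCoxeterSystem.length_one

theorem len_simple_ne (w : M.Group) (t : S) : len M (w * M.simple t) ≠ len M w := by
  have := M.toCoxeterSystem.length_mul_simple_ne w t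
  rwa [CoxeterMatrix.toCoxeterSystem_simple] at this

theorem len_eq_zero {w : M.Group} (h : len M w = 0) : w = 1 :=
  M.toCoxeterSystem.length_eq_zero_iff.mp h

theorem simple_mem {T : Set S} {t : S} (ht : t ∈ T) : M.simple t ∈ WP M T :=
  Subgroup.subset_closure ⟨t, ht, rfl⟩

theorem WP_mono {T T' : Set S} (h : T ⊆ T') : WP M T ≤ WP M T' :=
  Subgroup.closure_mono (Set.image_mono h)

theorem exists_min (T : Set S) (u : M.Group) :
    ∃ w v : M.Group, (∀ t ∈ T, len M w < len M (w * M.simple t)) ∧ v ∈ WP M T ∧ u = w * v := by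
  classical
  have hex : ∃ n : ℕ, ∃ v ∈ WP M T, len M (u * v) = n := ⟨_, 1, one_mem _, rfl⟩
  obtain ⟨v, hv, hn⟩ := Nat.find_spec hex
  refine ⟨u * v, v⁻¹, fun t ht => ?_, inv_mem hv, by group⟩
  have h1 : Nat.find hex ≤ len M (u * v * M.simple t) :=
    Nat.find_min' hex ⟨v * M.simple t, mul_mem hv (simple_mem ht), by rw [mul_assoc]⟩
  have h2 := len_simple_ne (u * v) t
  omega

include F in
theorem minIn_mul {T T' T'' : Set S} (h1 : T' ⊆ T) (h2 : T'' ⊆ T') {w v : M.Group}
    (hw : MinIn M T T' w) (hv : MinIn M T' T'' v) :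
    MinIn M T T'' (w * v) ∧ len M (w * v) = len M w + len M v := by
  have h0 := F.len_add T' w v hw.2 hv.1
  refine ⟨⟨mul_mem hw.1 (WP_mono h1 hv.1), fun t ht => ?_⟩, h0⟩
  have h3 := F.len_add T' w (v * M.simple t) hw.2 (mul_mem hv.1 (simple_mem (h2 ht)))
  have h4 := hv.2 t ht
  rw [mul_assoc]; omega

include F in
theorem minIn_factor {T T' T'' : Set S} (h1 : T' ⊆ T) (h2 : T'' ⊆ T') {u : M.Group}
    (hu : MinIn M T T'' u) : ∃ w v, MinIn M T T' w ∧ MinIn M T' T'' v ∧ u = w * v := by
  obtain ⟨w, v, hw, hv, rfl⟩ := exists_min T' u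
  refine ⟨w, v, ⟨?_, hw⟩, ⟨hv, fun t ht => ?_⟩, rfl⟩
  · have : w = w * v * v⁻¹ := by group
    rw [this]; exact mul_mem hu.1 (inv_mem (WP_mono h1 hv))
  · have h0 := F.len_add T' w v hw hv
    have h3 := F.len_add T' w (v * M.simple t) hw (mul_mem hv (simple_mem (h2 ht)))
    have h4 := hu.2 t ht
    rw [mul_assoc] at h4; omega

include F in
theorem min_unique {T : Set S} {w w' v v' : M.Group}
    (hw : ∀ t ∈ T, len M w < len M (w * M.simple t))
    (hw' : ∀ t ∈ T, len M w' < len M (w' * M.simple t))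
    (hv : v ∈ WP M T) (hv' : v' ∈ WP M T) (h : w * v = w' * v') : w = w' ∧ v = v' := by
  have e1 : w' = w * (v * v'⁻¹) := by rw [← mul_assoc, h]; group
  have e2 : w = w' * (v' * v⁻¹) := by rw [← mul_assoc, ← h]; group
  have h1 := F.len_add T w (v * v'⁻¹) hw (mul_mem hv (inv_mem hv'))
  have h2 := F.len_add T w' (v' * v⁻¹) hw' (mul_mem hv' (inv_mem hv))
  rw [← e1] at h1
  rw [← e2] at h2
  have h3 : len M (v * v'⁻¹) = 0 := by omega
  have h4 : v = v' := by
    have := len_eq_zero h3
    rwa [mul_inv_eq_one] at this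
  exact ⟨by rw [e1, h4]; group, h4⟩

end cox

section bdry

variable [LinearOrder S] (M : CoxeterMatrix S)

/-- The sign `(-1)^{#{t ∈ T : t < s}}`. -/
def sg (T : Finset S) (s : S) : ℤ := (-1) ^ (T.filter (· < s)).card

/-- all `w ∈ W_T` minimal in `w W_T'`. -/
def mR (T T' : Finset S) : Set M.Group := {w | MinIn M (T : Set S) (T' : Set S) w}

omit [LinearOrder S] in
theorem finite_mR {T : Finset S} (hT : Spherical M T) (T' : Finset S) : (mR M T T').Finite :=
  Set.Finite.subset hT fun _ hw => hw.1

variable {M}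

/-- the cells `(g w̃, T')`, `w ∈ W_T` minimal in `w W_T'`, with signs. -/
noncomputable def fsum (c : ACell M) (T' : Finset S) (h : T' ⊆ c.T) :
    Option (ACell M) →₀ ℤ :=
  ∑ w ∈ (finite_mR M c.sph T').toFinset,
    Finsupp.single (some ⟨c.g * lift M (artinGen M) w, T', c.sph.subset h⟩) ((-1) ^ len M w)

/-- boundary of a cell -/
noncomputable def dCell (c : ACell M) : Option (ACell M) →₀ ℤ :=
  (if c.T = ∅ then Finsupp.single none 1 else 0) +
    ∑ s : {s // s ∈ c.T}, sg c.T s.1 • fsum c (c.T.erase s.1) (Finset.erase_subset _ _)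

variable (M) in
/-- the augmented boundary -/
noncomputable def bD : (Option (ACell M) →₀ ℤ) →ₗ[ℤ] (Option (ACell M) →₀ ℤ) :=
  Finsupp.linearCombination ℤ (fun x : Option (ACell M) => x.elim 0 dCell)

theorem bD_single_none (n : ℤ) : bD M (Finsupp.single none n) = 0 := by
  simp [bD, Finsupp.linearCombination_single]

theorem bD_single_some (c : ACell M) (n : ℤ) :
    bD M (Finsupp.single (some c) n) = n • dCell c := by
  simp [bD, Finsupp.linearCombination_single]

omit [LinearOrder S] in
theorem fsum_comp (F : Facts M) (c : ACell M) (T' T'' : Finset S) (h1 : T' ⊆ c.T)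
    (h2 : T'' ⊆ T') :
    ∑ w ∈ (finite_mR M c.sph T').toFinset,
      ((-1 : ℤ) ^ len M w) • fsum ⟨c.g * lift M (artinGen M) w, T', c.sph.subset h1⟩ T'' h2 =
    fsum c T'' (h2.trans h1) := by
  classical
  have e : ∀ w : M.Group, fsum ⟨c.g * lift M (artinGen M) w, T', c.sph.subset h1⟩ T'' h2 =
      ∑ v ∈ (finite_mR M (c.sph.subset h1) T'').toFinset,
        Finsupp.single (some ⟨c.g * lift M (artinGen M) w * lift M (artinGen M) v, T'',
          (c.sph.subset h1).subset h2⟩) ((-1) ^ len M v) := fun w => rfl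
  simp only [e, Finset.smul_sum]
  rw [← Finset.sum_product', fsum]
  refine Finset.sum_bij (fun p _ => p.1 * p.2) ?_ ?_ ?_ ?_
  · rintro ⟨w, v⟩ hp
    simp only [Finset.mem_product, Set.Finite.mem_toFinset] at hp ⊢
    exact (minIn_mul F (by exact_mod_cast h1) (by exact_mod_cast h2) hp.1 hp.2).1
  · rintro ⟨w, v⟩ hp ⟨w', v'⟩ hp' h
    simp only [Finset.mem_product, Set.Finite.mem_toFinset] at hp hp'
    obtain ⟨e1, e2⟩ := min_unique F hp.1.2 hp'.1.2 hp.2.1 hp'.2.1 h
    rw [e1, e2]
  · intro u hu
    simp only [Set.Finite.mem_toFinset] at hu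
    obtain ⟨w, v, hw, hv, e⟩ :=
      minIn_factor F (T' := (T' : Set S)) (by exact_mod_cast h1) (by exact_mod_cast h2) hu
    refine ⟨⟨w, v⟩, ?_, e.symm⟩
    simp only [Finset.mem_product, Set.Finite.mem_toFinset]
    exact ⟨hw, hv⟩
  · rintro ⟨w, v⟩ hp
    simp only [Finset.mem_product, Set.Finite.mem_toFinset] at hp
    have hl := (minIn_mul F (by exact_mod_cast h1) (by exact_mod_cast h2) hp.1 hp.2).2
    rw [Finsupp.smul_single, smul_eq_mul, ← pow_add, ← hl]
    congr 3
    rw [F.lift_mul w v hl, mul_assoc]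

theorem bD_fsum (c : ACell M) (T' : Finset S) (h : T' ⊆ c.T) :
    bD M (fsum c T' h) = ∑ w ∈ (finite_mR M c.sph T').toFinset,
      ((-1 : ℤ) ^ len M w) • dCell ⟨c.g * lift M (artinGen M) w, T', c.sph.subset h⟩ := by
  unfold fsum
  rw [map_sum]
  exact Finset.sum_congr rfl fun w _ => bD_single_some _ _

theorem sg_anti {T : Finset S} {s t : S} (hs : s ∈ T) (ht : t ∈ T) (hst : s < t) :
    sg T s * sg (T.erase s) t = - (sg T t * sg (T.erase t) s) := by
  unfold sg
  have h1 : (T.erase s).filter (· < t) = (T.filter (· < t)).erase s := by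
    ext x; simp only [Finset.mem_filter, Finset.mem_erase]; tauto
  have h2 : (T.erase t).filter (· < s) = T.filter (· < s) := by
    ext x; simp only [Finset.mem_filter, Finset.mem_erase]
    constructor
    · rintro ⟨⟨_, h⟩, h'⟩; exact ⟨h, h'⟩
    · rintro ⟨h, h'⟩; exact ⟨⟨fun e => by subst e; exact absurd (h'.trans hst) (lt_irrefl _), h⟩, h'⟩
  have h3 : s ∈ T.filter (· < t) := by simp [hs, hst]
  rw [h1, h2, Finset.card_erase_of_mem h3]
  have h4 : 0 < (T.filter (· < t)).card := Finset.card_pos.mpr ⟨s, h3⟩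
  obtain ⟨n, hn⟩ := Nat.exists_eq_succ_of_ne_zero h4.ne'
  rw [hn]
  simp only [Nat.succ_eq_add_one, Nat.add_sub_cancel, pow_add, pow_one]
  ring

theorem double_zero (T : Finset S) {A : Type} [AddCommGroup A] (φ : S → S → A)
    (h : ∀ s ∈ T, ∀ t ∈ T, s ≠ t → φ s t + φ t s = 0) :
    ∑ s ∈ T, ∑ t ∈ T.erase s, φ s t = 0 := by
  rw [Finset.sum_sigma']
  refine Finset.sum_involution (fun p _ => ⟨p.2, p.1⟩) ?_ ?_ ?_ ?_
  · rintro ⟨s, t⟩ hp
    simp only [Finset.mem_sigma, Finset.mem_erase] at hp
    exact h s hp.1 t hp.2.2 (Ne.symm hp.2.1)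
  · rintro ⟨s, t⟩ hp _ he
    simp only [Finset.mem_sigma, Finset.mem_erase] at hp
    simp only [Sigma.mk.injEq, heq_eq_eq] at he
    exact hp.2.1 he.1
  · rintro ⟨s, t⟩ hp
    simp only [Finset.mem_sigma, Finset.mem_erase] at hp ⊢
    exact ⟨hp.2.2, Ne.symm hp.2.1, hp.1⟩
  · rintro ⟨s, t⟩ _
    rfl

omit [LinearOrder S] in
theorem alt_sum_zero {T : Finset S} (hT : Spherical M T) {s : S} (hs : s ∈ T) :
    ∑ w ∈ (finite_mR M hT ∅).toFinset, ((-1 : ℤ) ^ len M w) = 0 := by
  refine Finset.sum_involution (fun w _ => w * M.simple s) ?_ ?_ ?_ ?_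
  · intro w _
    have h1 := M.toCoxeterSystem.length_mul_simple w s
    rw [CoxeterMatrix.toCoxeterSystem_simple] at h1
    change len M (w * M.simple s) = len M w + 1 ∨ len M (w * M.simple s) + 1 = len M w at h1
    rcases h1 with h1 | h1
    · rw [h1, pow_succ]; ring
    · rw [← h1, pow_succ]; ring
  · intro w _ _ he
    exact len_simple_ne w s (by rw [he])
  · intro w hw
    simp only [Set.Finite.mem_toFinset] at hw ⊢
    exact ⟨mul_mem hw.1 (simple_mem (by exact_mod_cast hs)), fun t ht => by simp at ht⟩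
  · intro w _
    have : M.simple s * M.simple s = 1 := by
      have := M.toCoxeterSystem.simple_mul_simple_self s
      rwa [CoxeterMatrix.toCoxeterSystem_simple] at this
    rw [mul_assoc, this, mul_one]

theorem bD_dCell (F : Facts M) (c : ACell M) : bD M (dCell c) = 0 := by
  classical
  set G : Finset S → (Option (ACell M) →₀ ℤ) :=
    fun T' => if h : T' ⊆ c.T then fsum c T' h else 0 with hG
  have hGe : ∀ T' (h : T' ⊆ c.T), fsum c T' h = G T' := fun T' h => by
    rw [hG]; simp only [h, dite_true]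
  have key : ∀ s ∈ c.T, bD M (fsum c (c.T.erase s) (Finset.erase_subset _ _)) =
      ∑ t ∈ c.T.erase s, sg (c.T.erase s) t • G ((c.T.erase s).erase t) := by
    intro s hs
    rw [bD_fsum]
    have h1 : ∀ w : M.Group, dCell ⟨c.g * lift M (artinGen M) w, c.T.erase s,
        c.sph.subset (Finset.erase_subset _ _)⟩ =
        (if c.T.erase s = ∅ then Finsupp.single none 1 else 0) +
        ∑ t : {t // t ∈ c.T.erase s}, sg (c.T.erase s) t.1 •
          fsum ⟨c.g * lift M (artinGen M) w, c.T.erase s,
            c.sph.subset (Finset.erase_subset _ _)⟩ ((c.T.erase s).erase t.1)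
            (Finset.erase_subset _ _) := fun w => rfl
    simp only [h1, smul_add, Finset.sum_add_distrib, Finset.smul_sum]
    have h2 : ∑ w ∈ (finite_mR M c.sph (c.T.erase s)).toFinset,
        ((-1 : ℤ) ^ len M w) • (if c.T.erase s = ∅ then
          (Finsupp.single (none : Option (ACell M)) (1 : ℤ)) else 0) = 0 := by
      by_cases he : c.T.erase s = ∅
      · have := alt_sum_zero c.sph hs
        rw [← he] at this
        rw [← Finset.sum_smul, this, zero_smul]
      · simp [he]
    rw [h2, zero_add, Finset.sum_comm]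
    rw [← Finset.sum_coe_sort (c.T.erase s)]
    refine Finset.sum_congr rfl fun t _ => ?_
    have h3 := fsum_comp F c (c.T.erase s) ((c.T.erase s).erase t.1) (Finset.erase_subset _ _)
      (Finset.erase_subset _ _)
    rw [← hGe _ ((Finset.erase_subset _ _).trans (Finset.erase_subset _ _)), ← h3,
      Finset.smul_sum]
    refine Finset.sum_congr rfl fun w _ => ?_
    rw [smul_comm]
  have h0 : bD M (if c.T = ∅ then Finsupp.single none 1 else 0) = 0 := by
    split_ifs
    · exact bD_single_none 1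
    · exact map_zero _
  unfold dCell
  rw [map_add, h0, zero_add, map_sum]
  simp only [map_zsmul]
  rw [Finset.sum_coe_sort c.T (fun s => sg c.T s • bD M (fsum c (c.T.erase s)
    (Finset.erase_subset _ _)))]
  rw [Finset.sum_congr rfl (fun s hs => by rw [key s hs, Finset.smul_sum])]
  refine double_zero c.T (fun s t => sg c.T s • sg (c.T.erase s) t • G ((c.T.erase s).erase t))
    fun s hs t ht hst => ?_
  rw [Finset.erase_right_comm (a := t) (b := s), smul_smul, smul_smul, ← add_smul]
  have : sg c.T s * sg (c.T.erase s) t + sg c.T t * sg (c.T.erase t) s = 0 := by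
    rcases lt_or_gt_of_ne hst with h | h
    · rw [sg_anti hs ht h]; ring
    · rw [sg_anti ht hs h]; ring
  rw [this, zero_smul]

theorem bD_bD (F : Facts M) (z : Option (ACell M) →₀ ℤ) : bD M (bD M z) = 0 := by
  induction z using Finsupp.induction_linear with
  | zero => simp
  | add f g hf hg => rw [map_add, map_add, hf, hg, add_zero]
  | single x n =>
    cases x with
    | none => rw [bD_single_none, map_zero]
    | some c => rw [bD_single_some, map_zsmul, bD_dCell F, smul_zero]

end bdry

end Vale.Agent.P203.Hom
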