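import Vale.Agent.P203.Hom.Inst

/-!
# From the augmented complex on all cells to the chain complex of `Defs.lean`
-/

namespace Vale.Agent.P203.Hom

open Vale.Agent.P203 Vale.Agent.P203.Sph
open Vale.Agent.P203.Gar (WP tl)

variable {S : Type} {M : CoxeterMatrix S}

/-- the chain `g e_T` as a cell -/
noncomputable def Phi (M : CoxeterMatrix S) (n : ℕ) :
    Chain M (ArtinGroup M) n →+ (Option (ACell M) →₀ ℤ) :=
  Finsupp.liftAddHom fun c : Cell M n =>
    (Finsupp.liftAddHom fun g : ArtinGroup M =>
      Finsupp.singleAddHom (some (⟨g, c.T, c.spherical⟩ : ACell M))).comp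
      (MonoidAlgebra.coeffAddEquiv (R := ℤ) (M := ArtinGroup M)).toAddMonoidHom

open Classical in
/-- projection to the degree `n` part -/
noncomputable def Psi (M : CoxeterMatrix S) (n : ℕ) :
    (Option (ACell M) →₀ ℤ) →+ Chain M (ArtinGroup M) n :=
  Finsupp.liftAddHom fun x : Option (ACell M) =>
    match x with
    | none => 0
    | some c => if h : c.T.card = n then
        (Finsupp.singleAddHom (⟨c.T, c.sph, h⟩ : Cell M n)).comp
          ((MonoidAlgebra.coeffAddEquiv (R := ℤ) (M := ArtinGroup M)).symm.toAddMonoidHom.comp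
            (Finsupp.singleAddHom c.g)) else 0

theorem Phi_single (n : ℕ) (c : Cell M n) (g : ArtinGroup M) (r : ℤ) :
    Phi M n (Finsupp.single c (MonoidAlgebra.single g r)) =
      Finsupp.single (some ⟨g, c.T, c.spherical⟩) r := by
  unfold Phi
  rw [Finsupp.liftAddHom_apply_single]
  simp only [AddMonoidHom.comp_apply]
  change Finsupp.liftAddHom _ (MonoidAlgebra.single g r).coeff = _
  rw [MonoidAlgebra.coeff_single, Finsupp.liftAddHom_apply_single]
  rfl

theorem Psi_none (n : ℕ) (r : ℤ) : Psi M n (Finsupp.single none r) = 0 := by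
  unfold Psi
  rw [Finsupp.liftAddHom_apply_single]
  rfl

theorem Psi_some {n : ℕ} {c : ACell M} (h : c.T.card = n) (r : ℤ) :
    Psi M n (Finsupp.single (some c) r) =
      Finsupp.single ⟨c.T, c.sph, h⟩ (MonoidAlgebra.single c.g r) := by
  unfold Psi
  rw [Finsupp.liftAddHom_apply_single]
  simp only [dif_pos h]
  rfl

theorem Psi_some_ne {n : ℕ} {c : ACell M} (h : c.T.card ≠ n) (r : ℤ) :
    Psi M n (Finsupp.single (some c) r) = 0 := by
  unfold Psi
  rw [Finsupp.liftAddHom_apply_single]
  simp only [dif_neg h]
  rfl

/-- induction principle for chains -/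
theorem chain_induction {n : ℕ} {p : Chain M (ArtinGroup M) n → Prop} (h0 : p 0)
    (hadd : ∀ x y, p x → p y → p (x + y))
    (hs : ∀ (c : Cell M n) (g : ArtinGroup M) (r : ℤ),
      p (Finsupp.single c (MonoidAlgebra.single g r))) (z : Chain M (ArtinGroup M) n) : p z := by
  induction z using Finsupp.induction_linear with
  | zero => exact h0
  | add f g hf hg => exact hadd _ _ hf hg
  | single c a =>
    obtain ⟨a⟩ := a
    induction a using Finsupp.induction_linear with
    | zero =>
      have : (Finsupp.single c (MonoidAlgebra.ofCoeff (0 : ArtinGroup M →₀ ℤ)) :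
        Chain M (ArtinGroup M) n) = 0 := by
        rw [MonoidAlgebra.ofCoeff_zero, Finsupp.single_zero]
      rw [this]; exact h0
    | add f g hf hg =>
      have : (Finsupp.single c (MonoidAlgebra.ofCoeff (f + g)) : Chain M (ArtinGroup M) n) =
          Finsupp.single c (MonoidAlgebra.ofCoeff f) +
          Finsupp.single c (MonoidAlgebra.ofCoeff g) := by
        rw [← Finsupp.single_add]; rfl
      rw [this]; exact hadd _ _ hf hg
    | single g r => exact hs c g r

theorem Psi_Phi {n : ℕ} (z : Chain M (ArtinGroup M) n) : Psi M n (Phi M n z) = z := by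
  induction z using chain_induction with
  | h0 => simp
  | hadd x y hx hy => rw [map_add, map_add, hx, hy]
  | hs c g r =>
    rw [Phi_single, Psi_some (c := ⟨g, c.T, c.spherical⟩) c.card_eq]

theorem minReps_eq (T : Finset S) [DecidableEq S] (s : S) : minReps M T s = mR M T (T.erase s) := by
  ext w
  constructor
  · rintro ⟨h1, h2⟩
    exact ⟨h1, fun t ht => h2 t (Finset.mem_of_mem_erase (Finset.mem_coe.mp ht))
      (Finset.ne_of_mem_erase (Finset.mem_coe.mp ht))⟩
  · rintro ⟨h1, h2⟩
    exact ⟨h1, fun t ht hts => h2 t (Finset.mem_coe.mpr (Finset.mem_erase.mpr ⟨hts, ht⟩))⟩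

variable [LinearOrder S]

theorem bdry_single (n : ℕ) (c : Cell M (n + 1)) (g : ArtinGroup M) (r : ℤ) :
    bdry M (artinGen M) n (Finsupp.single c (MonoidAlgebra.single g r)) =
      ∑ s : {s // s ∈ c.T}, ∑ w ∈ (finite_mR M c.spherical (c.T.erase s.1)).toFinset,
        Finsupp.single (c.face s.1 s.2) (MonoidAlgebra.single (g * lift M (artinGen M) w)
          (r * (c.sgn s.1 * (-1) ^ len M w))) := by
  unfold bdry
  rw [Finsupp.linearCombination_single, Finset.smul_sum]
  refine Finset.sum_congr rfl fun s _ => ?_
  rw [finsum_mem_eq_finite_toFinset_sum _ (by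
    rw [minReps_eq]; exact finite_mR M c.spherical _), Finset.smul_sum]
  have : (show (minReps M c.T s.1).Finite by
    rw [minReps_eq]; exact finite_mR M c.spherical _).toFinset =
      (finite_mR M c.spherical (c.T.erase s.1)).toFinset := by
    ext w
    rw [Set.Finite.mem_toFinset, Set.Finite.mem_toFinset, minReps_eq]
  rw [this]
  refine Finset.sum_congr rfl fun w _ => ?_
  rw [Finsupp.smul_single, smul_eq_mul, MonoidAlgebra.single_mul_single]

theorem Phi_bdry (n : ℕ) (z : Chain M (ArtinGroup M) (n + 1)) :
    Phi M n (bdry M (artinGen M) n z) = bD M (Phi M (n + 1) z) := by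
  induction z using chain_induction with
  | h0 => simp
  | hadd x y hx hy => rw [map_add, map_add, hx, hy, map_add, map_add]
  | hs c g r =>
    rw [Phi_single, bdry_single, bD_single_some, map_sum]
    unfold dCell
    have hne : c.T ≠ ∅ := by
      intro h
      have := c.card_eq
      rw [h, Finset.card_empty] at this
      omega
    rw [if_neg hne, zero_add, Finset.smul_sum]
    refine Finset.sum_congr rfl fun s _ => ?_
    rw [map_sum, fsum, Finset.smul_sum, Finset.smul_sum]
    refine Finset.sum_congr rfl fun w _ => ?_
    rw [Phi_single, Finsupp.smul_single, Finsupp.smul_single, smul_eq_mul, smul_eq_mul]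
    rfl

theorem Psi_bD (n : ℕ) (y : Option (ACell M) →₀ ℤ) :
    Psi M n (bD M y) = bdry M (artinGen M) n (Psi M (n + 1) y) := by
  induction y using Finsupp.induction_linear with
  | zero => simp
  | add f g hf hg => rw [map_add, map_add, hf, hg, map_add, map_add]
  | single x r =>
    cases x with
    | none => rw [bD_single_none, Psi_none, map_zero, map_zero]
    | some c =>
      by_cases h : c.T.card = n + 1
      · rw [Psi_some h, bdry_single, bD_single_some]
        unfold dCell
        have hne : c.T ≠ ∅ := by
          intro h'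
          rw [h', Finset.card_empty] at h
          omega
        rw [if_neg hne, zero_add, Finset.smul_sum, map_sum]
        refine Finset.sum_congr rfl fun s _ => ?_
        rw [fsum, Finset.smul_sum, Finset.smul_sum, map_sum]
        refine Finset.sum_congr rfl fun w _ => ?_
        rw [Finsupp.smul_single, Finsupp.smul_single, smul_eq_mul, smul_eq_mul]
        have hc : (c.T.erase s.1).card = n := by
          rw [Finset.card_erase_of_mem s.2, h]; rfl
        rw [Psi_some (c := ⟨c.g * lift M (artinGen M) w, c.T.erase s.1,
          c.sph.subset (Finset.erase_subset _ _)⟩) hc]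
        rfl
      · rw [Psi_some_ne h, map_zero, bD_single_some, map_zsmul]
        have : Psi M n (dCell c) = 0 := by
          unfold dCell
          rw [map_add, map_sum]
          have h1 : Psi M n (if c.T = ∅ then Finsupp.single none 1 else 0) = 0 := by
            split_ifs
            · exact Psi_none _ _
            · exact map_zero _
          rw [h1, zero_add]
          refine Finset.sum_eq_zero fun s _ => ?_
          rw [map_zsmul, fsum, map_sum]
          rw [Finset.sum_eq_zero, smul_zero]
          intro w _
          refine Psi_some_ne (c := ⟨c.g * lift M (artinGen M) w, c.T.erase s.1,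
            c.sph.subset (Finset.erase_subset _ _)⟩) ?_ _
          change (c.T.erase s.1).card ≠ n
          rw [Finset.card_erase_of_mem s.2]
          have : 0 < c.T.card := Finset.card_pos.mpr ⟨s.1, s.2⟩
          omega
        rw [this, smul_zero]

/-- The augmentation `C_0 → ℤ`, the sum of all coefficients. -/
noncomputable def aug (M : CoxeterMatrix S) : Chain M (ArtinGroup M) 0 →+ ℤ :=
  Finsupp.liftAddHom fun _ : Cell M 0 =>
    (Finsupp.liftAddHom fun _ : ArtinGroup M => AddMonoidHom.id ℤ).comp
      (MonoidAlgebra.coeffAddEquiv (R := ℤ) (M := ArtinGroup M)).toAddMonoidHom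

omit [LinearOrder S] in
theorem aug_single (c : Cell M 0) (g : ArtinGroup M) (r : ℤ) :
    aug M (Finsupp.single c (MonoidAlgebra.single g r)) = r := by
  unfold aug
  rw [Finsupp.liftAddHom_apply_single]
  simp only [AddMonoidHom.comp_apply]
  change Finsupp.liftAddHom _ (MonoidAlgebra.single g r).coeff = _
  rw [MonoidAlgebra.coeff_single, Finsupp.liftAddHom_apply_single]
  rfl

theorem bD_Phi_zero (z : Chain M (ArtinGroup M) 0) :
    bD M (Phi M 0 z) = Finsupp.single none (aug M z) := by
  induction z using chain_induction with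
  | h0 => simp
  | hadd x y hx hy => rw [map_add, map_add, hx, hy, map_add, Finsupp.single_add]
  | hs c g r =>
    rw [Phi_single, aug_single, bD_single_some]
    have hT : c.T = ∅ := Finset.card_eq_zero.mp c.card_eq
    unfold dCell
    rw [if_pos hT]
    have : IsEmpty {s // s ∈ c.T} := ⟨fun s => by
      have h0 : 0 < c.T.card := Finset.card_pos.mpr ⟨s.1, s.2⟩
      have h1 := c.card_eq
      omega⟩
    simp

/-- **The bridge**: if the set of all cells is good, the cellular chain complex of the universal
cover of the Salvetti complex is exact in all positive degrees. -/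
theorem exact_of_good (h : HGood (Set.univ : Set (ACell M))) (n : ℕ) :
    Function.Exact (bdry M (artinGen M) (n + 1)) (bdry M (artinGen M) n) := by
  have hsp : ∀ z : Option (ACell M) →₀ ℤ, z ∈ Sp (cov (Set.univ : Set (ACell M))) := by
    intro z
    rw [Sp, Finsupp.mem_supported]
    exact fun x _ c _ => Set.mem_univ c
  intro z
  constructor
  · intro hz
    have h1 : bD M (Phi M (n + 1) z) = 0 := by rw [← Phi_bdry, hz, map_zero]
    obtain ⟨y, -, e⟩ := h _ (hsp _) h1
    refine ⟨Psi M (n + 2) y, ?_⟩
    rw [← Psi_bD, e, Psi_Phi]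
  · rintro ⟨y, rfl⟩
    have h1 : Phi M n (bdry M (artinGen M) n (bdry M (artinGen M) (n + 1) y)) = 0 := by
      rw [Phi_bdry, Phi_bdry, bD_bD (facts M)]
    rw [← Psi_Phi (bdry M (artinGen M) n (bdry M (artinGen M) (n + 1) y)), h1, map_zero]

/-- exactness at `C_0` of the augmented complex: the universal cover is connected. -/
theorem exact_aug_of_good (h : HGood (Set.univ : Set (ACell M))) :
    Function.Exact (bdry M (artinGen M) 0) (aug M) := by
  have hsp : ∀ z : Option (ACell M) →₀ ℤ, z ∈ Sp (cov (Set.univ : Set (ACell M))) := by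
    intro z
    rw [Sp, Finsupp.mem_supported]
    exact fun x _ c _ => Set.mem_univ c
  intro z
  constructor
  · intro hz
    have h1 : bD M (Phi M 0 z) = 0 := by rw [bD_Phi_zero, hz, Finsupp.single_zero]
    obtain ⟨y, -, e⟩ := h _ (hsp _) h1
    refine ⟨Psi M 1 y, ?_⟩
    rw [← Psi_bD, e, Psi_Phi]
  · rintro ⟨y, rfl⟩
    have h1 : bD M (Phi M 0 (bdry M (artinGen M) 0 y)) = 0 := by
      rw [Phi_bdry, bD_bD (facts M)]
    rw [bD_Phi_zero] at h1
    have := DFunLike.congr_fun h1 none
    simpa using this

end Vale.Agent.P203.Hom
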