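import Vale.Agent.P203.Hom.Princ

/-!
# The homological good theory on the cell poset

`HGood Q`: the augmented cellular chain complex of the lower set `Q` is exact.
`HRel A B`: a cycle (of the augmented complex) of `A` which bounds in `B` bounds in `A`.
-/

namespace Vale.Agent.P203.Hom

open Vale.Agent.P203 Vale.Agent.P203.Sph
open Vale.Agent.P203.Gar (WP tl)

variable {S : Type} [LinearOrder S] {M : CoxeterMatrix S}

/-- the generators of the augmented complex of `Q` -/
def cov (Q : Set (ACell M)) : Set (Option (ACell M)) := {x | ∀ c, x = some c → c ∈ Q}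

omit [LinearOrder S] in
theorem some_mem_cov {Q : Set (ACell M)} {c : ACell M} : some c ∈ cov Q ↔ c ∈ Q :=
  ⟨fun h => h c rfl, fun h c' hc' => by simpa only [← Option.some.inj hc'] using h⟩

omit [LinearOrder S] in
theorem none_mem_cov (Q : Set (ACell M)) : none ∈ cov Q := fun c hc => by cases hc

omit [LinearOrder S] in
theorem cov_inter (A B : Set (ACell M)) : cov (A ∩ B) = cov A ∩ cov B := by
  ext x
  exact ⟨fun h => ⟨fun c hc => (h c hc).1, fun c hc => (h c hc).2⟩,
    fun h c hc => ⟨h.1 c hc, h.2 c hc⟩⟩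

omit [LinearOrder S] in
theorem cov_union (A B : Set (ACell M)) : cov (A ∪ B) = cov A ∪ cov B := by
  ext x
  cases x with
  | none => exact ⟨fun _ => Or.inl (none_mem_cov A), fun _ => none_mem_cov _⟩
  | some c => simp only [Set.mem_union, some_mem_cov]

omit [LinearOrder S] in
theorem cov_iUnion {ι : Type} [Nonempty ι] (A : ι → Set (ACell M)) :
    cov (⋃ i, A i) = ⋃ i, cov (A i) := by
  ext x
  cases x with
  | none =>
    exact ⟨fun _ => Set.mem_iUnion.mpr ⟨Classical.arbitrary ι, none_mem_cov _⟩,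
      fun _ => none_mem_cov _⟩
  | some c => simp only [Set.mem_iUnion, some_mem_cov]

omit [LinearOrder S] in
theorem cov_mono {A B : Set (ACell M)} (h : A ⊆ B) : cov A ⊆ cov B := fun _ hx c hc => h (hx c hc)

omit [LinearOrder S] in
theorem vertex_le {c : ACell M} : (⟨c.g, ∅, spherical_empty⟩ : ACell M) ≤ c := by
  refine ⟨Finset.empty_subset _, 1, minIn_one _ _, ?_⟩
  rw [Gar.tl_one, mul_one]

omit [LinearOrder S] in
theorem fsum_mem {Q : Set (ACell M)} (hQ : IsLowerSet Q) {c : ACell M} (hc : c ∈ Q)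
    (T' : Finset S) (h : T' ⊆ c.T) : fsum c T' h ∈ Sp (cov Q) := by
  unfold fsum
  refine Submodule.sum_mem _ fun w hw => Finsupp.single_mem_supported ℤ _ ?_
  rw [some_mem_cov]
  rw [Set.Finite.mem_toFinset] at hw
  exact hQ ⟨h, w, hw, rfl⟩ hc

theorem dCell_mem {Q : Set (ACell M)} (hQ : IsLowerSet Q) {c : ACell M} (hc : c ∈ Q) :
    dCell c ∈ Sp (cov Q) := by
  unfold dCell
  refine Submodule.add_mem _ ?_ (Submodule.sum_mem _ fun s _ =>
    Submodule.smul_mem _ _ (fsum_mem hQ hc _ _))
  split_ifs
  · exact Finsupp.single_mem_supported ℤ _ (none_mem_cov Q)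
  · exact Submodule.zero_mem _

theorem stable_cov {Q : Set (ACell M)} (hQ : IsLowerSet Q) : Stable (bD M) (cov Q) := by
  intro z hz
  rw [Sp, Finsupp.mem_supported] at hz
  have hz' : z = ∑ b ∈ z.support, Finsupp.single b (z b) := by
    conv_lhs => rw [← Finsupp.sum_single z]
    rfl
  rw [hz', map_sum]
  refine Submodule.sum_mem _ fun b hb => ?_
  have hb' := hz hb
  cases b with
  | none => rw [bD_single_none]; exact Submodule.zero_mem _
  | some c =>
    rw [bD_single_some]
    exact Submodule.smul_mem _ _ (dCell_mem hQ (some_mem_cov.mp hb'))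

/-- The augmented cellular chain complex of the lower set `Q` is exact. -/
def HGood (Q : Set (ACell M)) : Prop := Ex (bD M) (cov Q)

/-- A cycle of `A` which bounds in `B` bounds in `A`. -/
def HRel (A B : Set (ACell M)) : Prop := Inj (bD M) (cov A) (cov B)

theorem hgood_principal (c : ACell M) : HGood (Set.Iic c) := by
  have : cov (Set.Iic c) = lowerCells c := rfl
  unfold HGood
  rw [this]
  exact ex_principal c

theorem hgood_union (A B : Set (ACell M)) (hA : IsLowerSet A) (hB : IsLowerSet B)
    (h1 : HGood A) (h2 : HGood B) (h3 : HGood (A ∩ B)) : HGood (A ∪ B) := by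
  unfold HGood at *
  rw [cov_union]
  rw [cov_inter] at h3
  exact h1.union (bD_bD (facts M)) (stable_cov hA) (stable_cov hB) h2 h3

theorem hgood_iUnion {ι : Type} [Nonempty ι] (A : ι → Set (ACell M))
    (hdir : Directed (· ⊆ ·) A) (h : ∀ i, HGood (A i)) : HGood (⋃ i, A i) := by
  unfold HGood at *
  rw [cov_iUnion]
  refine Ex.directed _ ?_ h
  intro i j
  obtain ⟨k, h1, h2⟩ := hdir i j
  exact ⟨k, cov_mono h1, cov_mono h2⟩

theorem bD_vertex (g : ArtinGroup M) :
    bD M (Finsupp.single (some ⟨g, ∅, spherical_empty⟩) 1) = Finsupp.single none 1 := by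
  rw [bD_single_some, one_smul]
  unfold dCell
  simp

theorem hgood_nonempty (A : Set (ACell M)) (h : HGood A) : A.Nonempty := by
  by_contra hne
  rw [Set.not_nonempty_iff_eq_empty] at hne
  subst hne
  obtain ⟨y, hy, e⟩ := h (Finsupp.single none 1)
    (Finsupp.single_mem_supported ℤ _ (none_mem_cov _)) (bD_single_none 1)
  have h0 : bD M y = 0 := by
    rw [Sp, Finsupp.mem_supported] at hy
    have hy' : y = ∑ b ∈ y.support, Finsupp.single b (y b) := by
      conv_lhs => rw [← Finsupp.sum_single y]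
      rfl
    rw [hy', map_sum]
    refine Finset.sum_eq_zero fun b hb => ?_
    cases b with
    | none => exact bD_single_none _
    | some c => exact absurd (some_mem_cov.mp (hy hb)) (Set.notMem_empty c)
  rw [h0] at e
  have := DFunLike.congr_fun e none
  simp at this

/-- In a disjoint union, `D y_A + D y_B` splits. -/
theorem hgood_connected (A B : Set (ACell M)) (hA : IsLowerSet A) (hB : IsLowerSet B)
    (hAn : A.Nonempty) (hBn : B.Nonempty) (hd : Disjoint A B) : ¬ HGood (A ∪ B) := by
  intro h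
  obtain ⟨a, ha⟩ := hAn
  obtain ⟨b, hb⟩ := hBn
  have ha0 : (⟨a.g, ∅, spherical_empty⟩ : ACell M) ∈ A := hA vertex_le ha
  have hb0 : (⟨b.g, ∅, spherical_empty⟩ : ACell M) ∈ B := hB vertex_le hb
  unfold HGood at h
  rw [cov_union] at h
  set va : Option (ACell M) →₀ ℤ := Finsupp.single (some ⟨a.g, ∅, spherical_empty⟩) 1 with hva
  set vb : Option (ACell M) →₀ ℤ := Finsupp.single (some ⟨b.g, ∅, spherical_empty⟩) 1 with hvb
  have hvaA : va ∈ Sp (cov A) := Finsupp.single_mem_supported ℤ _ (some_mem_cov.mpr ha0)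
  have hvbB : vb ∈ Sp (cov B) := Finsupp.single_mem_supported ℤ _ (some_mem_cov.mpr hb0)
  obtain ⟨y, hy, e⟩ := h (va - vb)
    (Submodule.sub_mem _ (Sp_mono Set.subset_union_left hvaA)
      (Sp_mono Set.subset_union_right hvbB))
    (by rw [map_sub, hva, hvb, bD_vertex, bD_vertex, sub_self])
  obtain ⟨ya, hya, yb, hyb, rfl⟩ := mem_Sp_union hy
  rw [map_add] at e
  have h1 : va - bD M ya = bD M yb + vb := by
    have : va = bD M ya + bD M yb + vb := by rw [e]; abel
    rw [this]; abel
  have h2 : va - bD M ya ∈ Sp (cov A ∩ cov B) :=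
    mem_Sp_inter (Submodule.sub_mem _ hvaA (stable_cov hA _ hya))
      (by rw [h1]; exact Submodule.add_mem _ (stable_cov hB _ hyb) hvbB)
  have h3 : cov A ∩ cov B = {none} := by
    ext x
    constructor
    · rintro ⟨hxa, hxb⟩
      cases x with
      | none => rfl
      | some c =>
        exact absurd (some_mem_cov.mp hxb) (Set.disjoint_left.mp hd (some_mem_cov.mp hxa))
    · rintro rfl
      exact ⟨none_mem_cov A, none_mem_cov B⟩
  rw [h3, Sp, Finsupp.mem_supported] at h2
  have h4 : bD M (va - bD M ya) = 0 := by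
    have hz : va - bD M ya = ∑ b ∈ (va - bD M ya).support,
        Finsupp.single b ((va - bD M ya) b) := by
      conv_lhs => rw [← Finsupp.sum_single (va - bD M ya)]
      rfl
    rw [hz, map_sum]
    refine Finset.sum_eq_zero fun b hb => ?_
    have := h2 hb
    rw [Set.mem_singleton_iff] at this
    subst this
    exact bD_single_none _
  rw [map_sub, bD_bD (facts M), sub_zero, hva, bD_vertex] at h4
  have := DFunLike.congr_fun h4 none
  simp at this

theorem hrel_refl (A : Set (ACell M)) : HRel A A := Inj.refl _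

theorem hrel_trans (A B C : Set (ACell M)) (hAB : A ⊆ B) (h1 : HRel A B) (h2 : HRel B C) :
    HRel A C := Inj.trans (cov_mono hAB) h1 h2

theorem hrel_union (A B : Set (ACell M)) (hA : IsLowerSet A) (hB : IsLowerSet B)
    (h : HGood (A ∩ B)) : HRel A (A ∪ B) := by
  unfold HRel HGood at *
  rw [cov_union]
  rw [cov_inter] at h
  exact Inj.union (bD_bD (facts M)) (stable_cov hA) (stable_cov hB) h

theorem hrel_iUnion {ι : Type} [Nonempty ι] (A : Set (ACell M)) (B : ι → Set (ACell M))
    (hdir : Directed (· ⊆ ·) B) (h : ∀ i, HRel A (B i)) : HRel A (⋃ i, B i) := by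
  unfold HRel at *
  rw [cov_iUnion]
  refine Inj.directed _ ?_ h
  intro i j
  obtain ⟨k, h1, h2⟩ := hdir i j
  exact ⟨k, cov_mono h1, cov_mono h2⟩

theorem hrel_good (A B : Set (ACell M)) (hAB : A ⊆ B) (h1 : HRel A B) (h2 : HGood B) :
    HGood A := Inj.ex (cov_mono hAB) h1 h2

/-- adding a disjoint lower set -/
theorem hrel_disjoint (A B : Set (ACell M)) (hA : IsLowerSet A) (hB : IsLowerSet B)
    (hAn : A.Nonempty) (hd : Disjoint A B) : HRel A (A ∪ B) := by
  obtain ⟨a, ha⟩ := hAn
  have ha0 : (⟨a.g, ∅, spherical_empty⟩ : ACell M) ∈ A := hA vertex_le ha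
  unfold HRel
  rw [cov_union]
  rintro z hz hDz ⟨y, hy, e⟩
  obtain ⟨ya, hya, yb, hyb, rfl⟩ := mem_Sp_union hy
  rw [map_add] at e
  have h1 : z - bD M ya = bD M yb := by rw [← e]; abel
  have h2 : z - bD M ya ∈ Sp (cov A ∩ cov B) :=
    mem_Sp_inter (Submodule.sub_mem _ hz (stable_cov hA _ hya))
      (by rw [h1]; exact stable_cov hB _ hyb)
  have h3 : cov A ∩ cov B = {none} := by
    ext x
    constructor
    · rintro ⟨hxa, hxb⟩
      cases x with
      | none => rfl
      | some c =>
        exact absurd (some_mem_cov.mp hxb) (Set.disjoint_left.mp hd (some_mem_cov.mp hxa))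
    · rintro rfl
      exact ⟨none_mem_cov A, none_mem_cov B⟩
  rw [h3, Sp, Finsupp.mem_supported] at h2
  have h4 : z - bD M ya = Finsupp.single none ((z - bD M ya) none) := by
    ext x
    by_cases hx : x = none
    · rw [hx, Finsupp.single_eq_same]
    · rw [Finsupp.single_eq_of_ne hx]
      by_contra hcon
      exact hx (h2 (Finsupp.mem_support_iff.mpr hcon))
  refine ⟨ya + ((z - bD M ya) none) • Finsupp.single (some ⟨a.g, ∅, spherical_empty⟩) 1,
    Submodule.add_mem _ hya (Submodule.smul_mem _ _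
      (Finsupp.single_mem_supported ℤ _ (some_mem_cov.mpr ha0))), ?_⟩
  rw [map_add, map_zsmul, bD_vertex, Finsupp.smul_single, smul_eq_mul, mul_one, ← h4]
  abel

end Vale.Agent.P203.Hom
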