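import Vale.Agent.P203.Hom.Bridge
import Vale.Agent.P203.Glue.Theory

/-!
# The homological theory as an instance of the abstract theory of block GLUE
-/

namespace Vale.Agent.P203.Hom

open Vale.Agent.P203 Vale.Agent.P203.Sph

variable {S : Type} [LinearOrder S]

theorem posetTheory_hom (M : CoxeterMatrix S) :
    Glue.PosetTheory (HGood : Set (ACell M) → Prop) HRel where
  principal := hgood_principal
  union := hgood_union
  iUnion A _ hdir h := hgood_iUnion A hdir h
  rel_refl := hrel_refl
  rel_trans A B C hAB _ h1 h2 := hrel_trans A B C hAB h1 h2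
  rel_union := hrel_union
  rel_iUnion A B _ hdir h := hrel_iUnion A B hdir h
  rel_good A B _ hAB h1 h2 := hrel_good A B hAB h1 h2

end Vale.Agent.P203.Hom
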