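import Vale.Agent.P203.Hom.Bdry
import Vale.Agent.P203.Gar.Lift

/-!
# Principal down-sets are exact
-/

namespace Vale.Agent.P203.Hom

open Vale.Agent.P203 Vale.Agent.P203.Sph
open Vale.Agent.P203.Gar (WP tl)

variable {S : Type}

theorem facts (M : CoxeterMatrix S) : Facts M where
  len_add _ _ _ hw hv := Cox.length_min_mul (cs := M.toCoxeterSystem) hw hv
  lift_mul _ _ h := Gar.lift_mul (Gar.isBraided_artinGen M) h
  long_unique _ _ _ hw hv h1 h2 :=
    (Cox.isMax_unique (cs := M.toCoxeterSystem) hw hv h1 h2).symm

variable [LinearOrder S] {M : CoxeterMatrix S}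

/-- the cells below `c0` (and the extra generator in degree `-1`) -/
def lowerCells (c0 : ACell M) : Set (Option (ACell M)) :=
  {x | ∀ c, x = some c → c.T ⊆ c0.T ∧ ∃ w, MinIn M (c0.T : Set S) (c.T : Set S) w ∧
    c.g = c0.g * lift M (artinGen M) w}

/-- position of a cell in the Coxeter complex of `c0` -/
noncomputable def wv (c0 c : ACell M) : M.Group := Gar.toW M (c0.g⁻¹ * c.g)

open Classical in
/-- ascents -/
noncomputable def asc (c0 : ACell M) (w : M.Group) : Finset S :=
  c0.T.filter (fun t => len M w < len M (w * M.simple t))

omit [LinearOrder S] in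
theorem wv_eq {c0 c : ACell M} {w : M.Group} (h : c.g = c0.g * lift M (artinGen M) w) :
    wv c0 c = w := by
  unfold wv
  rw [h, inv_mul_cancel_left]
  exact Gar.toW_tl w

omit [LinearOrder S] in
theorem spherical_empty : Spherical M ∅ := by
  unfold Spherical
  simp only [Finset.coe_empty, Set.image_empty, Subgroup.closure_empty]
  infer_instance

/-- the longest element of `W_{c0.T}` -/
noncomputable def wt (c0 : ACell M) : M.Group := Cox.w0 M.toCoxeterSystem (c0.T : Set S)

/-- the matching -/
noncomputable def mt (c0 : ACell M) : Option (ACell M) → Option (ACell M)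
  | none => some ⟨c0.g * lift M (artinGen M) (wt c0), ∅, spherical_empty⟩
  | some c => if h : (asc c0 (wv c0 c)).Nonempty ∧ c.T ⊆ c0.T then
      some ⟨c.g, insert ((asc c0 (wv c0 c)).min' h.1) c.T, c0.sph.subset (by
        intro x hx
        rcases Finset.mem_insert.mp hx with rfl | hx
        · exact Finset.filter_subset _ _ ((asc c0 (wv c0 c)).min'_mem h.1)
        · exact h.2 hx)⟩ else none

/-- the lower elements of the matching -/
def LL (c0 : ACell M) : Set (Option (ACell M)) :=
  {x | ∀ c, x = some c → x ∈ lowerCells c0 ∧
    ∃ h : (asc c0 (wv c0 c)).Nonempty, (asc c0 (wv c0 c)).min' h ∉ c.T}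

omit [LinearOrder S] in
theorem mem_asc {c0 : ACell M} {w : M.Group} {t : S} :
    t ∈ asc c0 w ↔ t ∈ c0.T ∧ len M w < len M (w * M.simple t) := by
  unfold asc
  rw [Finset.mem_filter]

theorem ex_principal (c0 : ACell M) : Ex (bD M) (lowerCells c0) := by
  classical
  have F := facts M
  have : Finite (Cox.parab M.toCoxeterSystem (c0.T : Set S)) := c0.sph
  have hw0mem : wt c0 ∈ WP M (c0.T : Set S) :=
    Cox.w0_mem (cs := M.toCoxeterSystem) (T := (c0.T : Set S))
  have hw0max : ∀ t ∈ c0.T, len M (wt c0 * M.simple t) < len M (wt c0) := fun t ht =>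
    Cox.w0_isMax (cs := M.toCoxeterSystem) (T := (c0.T : Set S)) t ht
  have hle : ∀ w ∈ WP M (c0.T : Set S), len M w ≤ len M (wt c0) := fun w hw =>
    Cox.length_le_w0 (cs := M.toCoxeterSystem) (T := (c0.T : Set S)) hw
  -- a cell below is determined by `w`
  have hasc0 : ∀ w ∈ WP M (c0.T : Set S), ¬ (asc c0 w).Nonempty → w = wt c0 := by
    intro w hw hne
    refine F.long_unique (c0.T : Set S) w (wt c0) hw hw0mem (fun t ht => ?_) hw0max
    by_contra hcon
    apply hne
    refine ⟨t, mem_asc.mpr ⟨ht, ?_⟩⟩
    have := len_simple_ne w t
    omega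
  have hascw0 : asc c0 (wt c0) = ∅ := by
    apply Finset.eq_empty_of_forall_notMem
    intro t ht
    rw [mem_asc] at ht
    exact absurd (hw0max t ht.1) (not_lt.mpr ht.2.le)
  refine ex_of_matching (bD_bD F) (lowerCells c0) (LL c0) (mt c0)
    (fun x => x.elim 0 (fun c => len M (wt c0) - len M (wv c0 c))) ?_ ?_ ?_
  · -- `mt` maps into `lowerCells`
    rintro (_ | c) hl
    · intro c hc
      simp only [mt, Option.some.injEq] at hc
      subst hc
      exact ⟨Finset.empty_subset _, wt c0, ⟨hw0mem, fun t ht => by simp at ht⟩, rfl⟩
    · obtain ⟨hc, hne, hr⟩ := hl c rfl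
      obtain ⟨hT, w, hw, hg⟩ := hc c rfl
      intro c' hc'
      have hcond : (asc c0 (wv c0 c)).Nonempty ∧ c.T ⊆ c0.T := ⟨hne, hT⟩
      simp only [mt, dif_pos hcond, Option.some.injEq] at hc'
      subst hc'
      have hmem := (asc c0 (wv c0 c)).min'_mem hne
      rw [mem_asc] at hmem
      have hmem2 : len M w < len M (w * M.simple ((asc c0 (wv c0 c)).min' hne)) := by
        have h2 := hmem.2
        generalize (asc c0 (wv c0 c)).min' hne = r at h2 ⊢
        rwa [wv_eq hg] at h2
      refine ⟨?_, w, ⟨hw.1, fun t ht => ?_⟩, hg⟩
      · intro x hx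
        rcases Finset.mem_insert.mp hx with rfl | hx
        · exact hmem.1
        · exact hT hx
      · have ht' := Finset.mem_insert.mp (Finset.mem_coe.mp ht)
        rcases ht' with rfl | ht'
        · exact hmem2
        · exact hw.2 t ht'
  · -- covering
    rintro (_ | c) hb hbL
    · exact absurd (fun c hc => by cases hc) hbL
    · obtain ⟨hT, w, hw, hg⟩ := hb c rfl
      by_cases hne : (asc c0 (wv c0 c)).Nonempty
      · have hr : (asc c0 (wv c0 c)).min' hne ∈ c.T := by
          by_contra hcon
          apply hbL
          rintro c' hc'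
          simp only [Option.some.injEq] at hc'
          subst hc'
          exact ⟨hb, hne, hcon⟩
        set r := (asc c0 (wv c0 c)).min' hne with hrdef
        have hsub : c.T.erase r ⊆ c.T := Finset.erase_subset _ _
        refine ⟨some ⟨c.g, c.T.erase r, c.sph.subset hsub⟩, ?_, ?_⟩
        · rintro c' hc'
          simp only [Option.some.injEq] at hc'
          subst hc'
          refine ⟨?_, ?_⟩
          · rintro c'' hc''
            simp only [Option.some.injEq] at hc''
            subst hc''
            exact ⟨hsub.trans hT, w, ⟨hw.1, fun t ht => hw.2 t (hsub ht)⟩, hg⟩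
          · refine ⟨hne, ?_⟩
            exact Finset.notMem_erase r c.T
        · have hcond : (asc c0 (wv c0 ⟨c.g, c.T.erase r, c.sph.subset hsub⟩)).Nonempty ∧
              c.T.erase r ⊆ c0.T := ⟨hne, hsub.trans hT⟩
          simp only [mt, dif_pos hcond, Option.some.injEq]
          ext1
          · rfl
          · change c.T = insert r (c.T.erase r)
            rw [Finset.insert_erase hr]
      · have hww := hasc0 w hw.1 (by rwa [wv_eq hg] at hne)
        refine ⟨none, fun c hc => by (cases hc), ?_⟩
        simp only [mt, Option.some.injEq]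
        ext1
        · change c.g = c0.g * lift M (artinGen M) (wt c0)
          rw [hg, hww]
        · change c.T = ∅
          apply Finset.eq_empty_of_forall_notMem
          intro t ht
          have h1 := hw.2 t ht
          have h2 := hw0max t (hT ht)
          rw [← hww] at h2
          omega
  · -- boundary
    rintro (_ | c) hl
    · refine ⟨1, Or.inl rfl, ?_⟩
      have : bD M (Finsupp.single (mt c0 none) 1) = Finsupp.single none 1 := by
        simp only [mt, bD_single_some, one_smul]
        unfold dCell
        simp
      rw [this, sub_self]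
      exact Submodule.zero_mem _
    · obtain ⟨hc, hne, hr⟩ := hl c rfl
      obtain ⟨hT, w, hw, hg⟩ := hc c rfl
      set r := (asc c0 (wv c0 c)).min' hne with hrdef
      have hcond : (asc c0 (wv c0 c)).Nonempty ∧ c.T ⊆ c0.T := ⟨hne, hT⟩
      have hrmem := (asc c0 (wv c0 c)).min'_mem hne
      rw [mem_asc] at hrmem
      rw [← hrdef, wv_eq hg] at hrmem
      have hTins : insert r c.T ⊆ c0.T := by
        intro x hx
        rcases Finset.mem_insert.mp hx with rfl | hx
        · exact hrmem.1
        · exact hT hx
      set c1 : ACell M := ⟨c.g, insert r c.T, c0.sph.subset hTins⟩ with hc1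
      have hmt : mt c0 (some c) = some c1 := by
        simp only [mt, dif_pos hcond]
        rfl
      refine ⟨sg (insert r c.T) r, ?_, ?_⟩
      · unfold sg
        exact neg_one_pow_eq_or ℤ _
      · rw [hmt, bD_single_some, one_smul]
        -- split off the term `v = 1`
        have hsplit : ∀ (T' : Finset S) (h : T' ⊆ c1.T), fsum c1 T' h -
            Finsupp.single (some ⟨c.g, T', c1.sph.subset h⟩) 1 ∈
            Sp {b | b ∈ lowerCells c0 ∧ (b ∈ LL c0 → (b.elim 0
              (fun c => len M (wt c0) - len M (wv c0 c)) : ℕ) <
              len M (wt c0) - len M (wv c0 c))} := by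
          intro T' h
          have h1 : (1 : M.Group) ∈ (finite_mR M c1.sph T').toFinset := by
            rw [Set.Finite.mem_toFinset]
            refine ⟨one_mem _, fun t _ => ?_⟩
            rw [one_mul, len_one', Gar.len_simple]
            exact one_pos
          unfold fsum
          rw [← Finset.add_sum_erase _ _ h1]
          have e1 : (Finsupp.single (some (⟨c1.g * lift M (artinGen M) 1, T',
              c1.sph.subset h⟩ : ACell M)) ((-1 : ℤ) ^ len M (1 : M.Group))) =
              Finsupp.single (some ⟨c.g, T', c1.sph.subset h⟩) 1 := by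
            congr 3
            · rw [lift_one, mul_one]
            · rw [len_one', pow_zero]
          rw [e1, add_sub_cancel_left]
          refine Submodule.sum_mem _ fun v hv => ?_
          rw [Finset.mem_erase, Set.Finite.mem_toFinset] at hv
          obtain ⟨hv1, hv2⟩ := hv
          refine Finsupp.single_mem_supported ℤ _ ?_
          have hmin : MinIn M (c0.T : Set S) (T' : Set S) (w * v) ∧
              len M (w * v) = len M w + len M v := by
            refine minIn_mul F (T' := ((insert r c.T : Finset S) : Set S))
              (by exact_mod_cast hTins) (by exact_mod_cast h) ⟨hw.1, fun t ht => ?_⟩ hv2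
            rcases Finset.mem_insert.mp (Finset.mem_coe.mp ht) with rfl | ht'
            · exact hrmem.2
            · exact hw.2 t ht'
          have hge : c1.g * lift M (artinGen M) v = c0.g * lift M (artinGen M) (w * v) := by
            rw [F.lift_mul w v hmin.2, ← mul_assoc, ← hg]
          refine ⟨?_, fun _ => ?_⟩
          · intro c' hc'
            simp only [Option.some.injEq] at hc'
            subst hc'
            exact ⟨h.trans hTins, w * v, hmin.1, hge⟩
          · change len M (wt c0) - len M (wv c0 ⟨c1.g * lift M (artinGen M) v, T', _⟩) < _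
            rw [wv_eq hge, wv_eq hg, hmin.2]
            have h2 := hle _ hmin.1.1
            have h3 : 0 < len M v := len_pos M hv1
            rw [hmin.2] at h2
            omega
        have hrc : (insert r c.T).erase r = c.T := Finset.erase_insert hr
        have hne' : insert r c.T ≠ ∅ := Finset.insert_ne_empty _ _
        have hd : dCell c1 = ∑ s : {s // s ∈ c1.T},
            sg c1.T s.1 • fsum c1 (c1.T.erase s.1) (Finset.erase_subset _ _) := by
          unfold dCell
          rw [if_neg hne', zero_add]
        rw [hd]
        have hrm : r ∈ c1.T := Finset.mem_insert_self _ _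
        rw [← Finset.add_sum_erase _ _ (Finset.mem_univ (⟨r, hrm⟩ : {s // s ∈ c1.T}))]
        have e2 : sg c1.T r • fsum c1 (c1.T.erase r) (Finset.erase_subset _ _) -
            Finsupp.single (some c) (sg (insert r c.T) r) = sg c1.T r •
            (fsum c1 (c1.T.erase r) (Finset.erase_subset _ _) -
            Finsupp.single (some ⟨c.g, c1.T.erase r, c1.sph.subset (Finset.erase_subset _ _)⟩)
              1) := by
          rw [smul_sub, Finsupp.smul_single, smul_eq_mul, mul_one]
          congr 2
          congr 1
          ext1
          · rfl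
          · exact hrc.symm
        rw [add_sub_right_comm, e2]
        refine Submodule.add_mem _ (Submodule.smul_mem _ _ (hsplit _ _)) ?_
        refine Submodule.sum_mem _ fun s hs => Submodule.smul_mem _ _ ?_
        have hsr : s.1 ≠ r := by
          intro h
          rw [Finset.mem_erase] at hs
          exact hs.1 (Subtype.ext h)
        have e3 : fsum c1 (c1.T.erase s.1) (Finset.erase_subset _ _) =
            (fsum c1 (c1.T.erase s.1) (Finset.erase_subset _ _) -
            Finsupp.single (some ⟨c.g, c1.T.erase s.1,
              c1.sph.subset (Finset.erase_subset _ _)⟩) 1) +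
            Finsupp.single (some ⟨c.g, c1.T.erase s.1,
              c1.sph.subset (Finset.erase_subset _ _)⟩) 1 := by abel
        rw [e3]
        refine Submodule.add_mem _ (hsplit _ _) (Finsupp.single_mem_supported ℤ _ ?_)
        refine ⟨?_, fun hbL => ?_⟩
        · intro c' hc'
          simp only [Option.some.injEq] at hc'
          subst hc'
          refine ⟨(Finset.erase_subset _ _).trans hTins, w, ⟨hw.1, fun t ht => ?_⟩, hg⟩
          have ht1 := Finset.mem_of_mem_erase (Finset.mem_coe.mp ht)
          rcases Finset.mem_insert.mp ht1 with rfl | ht'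
          · exact hrmem.2
          · exact hw.2 t ht'
        · exfalso
          obtain ⟨_, hne2, hr2⟩ := hbL _ rfl
          apply hr2
          change r ∈ c1.T.erase s.1
          exact Finset.mem_erase.mpr ⟨Ne.symm hsr, hrm⟩

end Vale.Agent.P203.Hom
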